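import Vale.Agent.P204.Defs

/-!
# P204: averaging over the fibre
-/

noncomputable section

open MeasureTheory Filter Topology Set
open scoped ContDiff Matrix Pointwise

namespace Vale.Agent.P204

/-- The fundamental box of the fibre. -/
def box : Set (Fin 3 → ℝ) := Set.pi univ fun _ => Ico (0 : ℝ) 1

theorem measurableSet_box : MeasurableSet box :=
  MeasurableSet.univ_pi fun _ => measurableSet_Ico

theorem box_subset : box ⊆ Icc (0 : Fin 3 → ℝ) 1 := fun _ hx =>
  ⟨fun i => (hx i trivial).1, fun i => (hx i trivial).2.le⟩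

theorem volume_box : volume box = 1 := by
  rw [box, Real.volume_pi_Ico]
  simp

instance : IsFiniteMeasure (volume.restrict box) :=
  isFiniteMeasure_restrict.2 (by rw [volume_box]; exact ENNReal.one_ne_top)

theorem integrableOn_box {f : (Fin 3 → ℝ) → ℝ} (hf : Continuous f) : IntegrableOn f box :=
  (hf.continuousOn.integrableOn_compact isCompact_Icc).mono_set box_subset

theorem box_eq : box = ZSpan.fundamentalDomain (Pi.basisFun ℝ (Fin 3)) := by
  rw [ZSpan.fundamentalDomain_pi_basisFun]; rfl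

/-- Periodicity with respect to the integer lattice. -/
def IsPer (g : (Fin 3 → ℝ) → ℝ) : Prop :=
  ∀ (x : Fin 3 → ℝ) (z : Fin 3 → ℤ), g (x + fun i => (z i : ℝ)) = g x

theorem integral_translate {g : (Fin 3 → ℝ) → ℝ} (hg : IsPer g) (a : Fin 3 → ℝ) :
    ∫ x in box, g (x + a) = ∫ x in box, g x := by
  have hs := ZSpan.isAddFundamentalDomain (Pi.basisFun ℝ (Fin 3))
    (volume : Measure (Fin 3 → ℝ))
  rw [← box_eq] at hs
  have : VAddInvariantMeasure
      (Submodule.span ℤ (Set.range (Pi.basisFun ℝ (Fin 3)))) (Fin 3 → ℝ) volume :=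
    ⟨fun g s _ => measure_preimage_add volume (g : Fin 3 → ℝ) s⟩
  have ht := hs.vadd_of_comm a
  have hinv : ∀ (c : Submodule.span ℤ (Set.range (Pi.basisFun ℝ (Fin 3))))
      (x : Fin 3 → ℝ), g (c +ᵥ x) = g x := by
    intro c x
    have hc := ((Pi.basisFun ℝ (Fin 3)).mem_span_iff_repr_mem ℤ (c : Fin 3 → ℝ)).1 c.2
    choose z hz using hc
    have : (c : Fin 3 → ℝ) = fun i => (z i : ℝ) := funext fun i => by simpa using (hz i).symm
    show g ((c : Fin 3 → ℝ) + x) = g x
    rw [this, add_comm, hg]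
  rw [← ht.setIntegral_eq hs hinv]
  have hpre : (fun x : Fin 3 → ℝ => x + a) ⁻¹' (a +ᵥ box) = box := by
    ext x
    simp [Set.mem_vadd_set_iff_neg_vadd_mem]
  have := (measurePreserving_add_right volume a).setIntegral_preimage_emb
    (MeasurableEquiv.addRight a).measurableEmbedding g (a +ᵥ box)
  rwa [hpre] at this

/-- A periodic function and its pullback by an integral automorphism have the same integral. -/
theorem integral_comp_mat {g : (Fin 3 → ℝ) → ℝ} (hg : IsPer g) (hc : Continuous g)
    (A : Matrix (Fin 3) (Fin 3) ℤ) (hA : IsUnit A.det) :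
    ∫ x in box, g (A.map (Int.cast : ℤ → ℝ) *ᵥ x) = ∫ x in box, g x := by
  set M := A.map (Int.cast : ℤ → ℝ) with hM
  have hMz : ∀ z : Fin 3 → ℤ, M *ᵥ (fun i => (z i : ℝ)) = fun i => ((A *ᵥ z) i : ℝ) := by
    intro z; funext i; simp [hM, Matrix.mulVec, dotProduct]
  have hp : IsPer fun x => g (M *ᵥ x) := fun x z => by
    simp only [Matrix.mulVec_add, hMz]
    exact hg _ _
  have hinv : ∀ y, M *ᵥ ((A⁻¹).map (Int.cast : ℤ → ℝ) *ᵥ y) = y := by
    intro y
    have h1 : M * (A⁻¹).map (Int.cast : ℤ → ℝ) = (A * A⁻¹).map (Int.cast : ℤ → ℝ) :=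
      (Matrix.map_mul (f := Int.castRingHom ℝ)).symm
    rw [Matrix.mulVec_mulVec, h1, Matrix.mul_nonsing_inv A hA]
    simp
  have hcont : Continuous fun p : (Fin 3 → ℝ) × (Fin 3 → ℝ) => g (M *ᵥ p.1 + p.2) :=
    hc.comp (by fun_prop)
  have hint : Integrable (Function.uncurry fun x y => g (M *ᵥ x + y))
      ((volume.restrict box).prod (volume.restrict box)) := by
    rw [Measure.prod_restrict]
    exact (hcont.continuousOn.integrableOn_compact (isCompact_Icc.prod isCompact_Icc)).mono_set
      (Set.prod_mono box_subset box_subset)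
  have hswap := integral_integral_swap hint
  have h1 : ∀ x, ∫ y in box, g (M *ᵥ x + y) = ∫ y in box, g y := fun x => by
    simpa [add_comm] using integral_translate hg (M *ᵥ x)
  have h2 : ∀ y, ∫ x in box, g (M *ᵥ x + y) = ∫ x in box, g (M *ᵥ x) := fun y => by
    rw [← integral_translate hp ((A⁻¹).map (Int.cast : ℤ → ℝ) *ᵥ y)]
    simp only [Matrix.mulVec_add, hinv]
  simp only [h1, h2, integral_const, measureReal_def, Measure.restrict_apply_univ, volume_box,
    ENNReal.toReal_one, one_smul] at hswap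
  exact hswap.symm

theorem cons_add_cons (t s : ℝ) (x y : Fin 3 → ℝ) :
    (Fin.cons t x : V4) + Fin.cons s y = Fin.cons (t + s) (x + y) := by
  ext i; refine Fin.cases ?_ (fun j => ?_) i <;> simp

/-- The average of `f` over the fibre above `t`. -/
def avg (f : V4 → ℝ) (t : ℝ) : ℝ := ∫ x in box, f (Fin.cons t x)

theorem continuous_cons (t : ℝ) : Continuous fun x : Fin 3 → ℝ => (Fin.cons t x : V4) :=
  continuous_pi fun i => by refine Fin.cases ?_ (fun j => ?_) i <;> simp <;> fun_prop

theorem hasDerivAt_avg {f : V4 → ℝ} (hf : ContDiff ℝ 1 f) (t : ℝ) (v : V4) :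
    HasDerivAt (fun s : ℝ => ∫ x in box, f (Fin.cons t x + s • v))
      (∫ x in box, fderiv ℝ f (Fin.cons t x) v) 0 := by
  have hd : Continuous fun p => fderiv ℝ f p v :=
    (hf.continuous_fderiv one_ne_zero).clm_apply continuous_const
  have hK : IsCompact ((fun q : (Fin 3 → ℝ) × ℝ => (Fin.cons t q.1 : V4) + q.2 • v) ''
      (Icc 0 1 ×ˢ Icc (-1) 1)) :=
    (isCompact_Icc.prod isCompact_Icc).image
      (((continuous_cons t).comp continuous_fst).add (by fun_prop))
  obtain ⟨B, hB⟩ := hK.exists_bound_of_continuousOn hd.continuousOn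
  have hline : ∀ (x : Fin 3 → ℝ) (s : ℝ), HasDerivAt (fun r : ℝ => f (Fin.cons t x + r • v))
      (fderiv ℝ f (Fin.cons t x + s • v) v) s := by
    intro x s
    have h1 : HasDerivAt (fun r : ℝ => (Fin.cons t x : V4) + r • v) v s := by
      simpa using ((hasDerivAt_id' s).smul_const v).const_add (Fin.cons t x : V4)
    exact (hf.differentiable one_ne_zero _).hasFDerivAt.comp_hasDerivAt s h1
  have hmeas : ∀ s : ℝ, Continuous fun x : Fin 3 → ℝ => (Fin.cons t x : V4) + s • v :=
    fun s => (continuous_cons t).add continuous_const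
  have key := (hasDerivAt_integral_of_dominated_loc_of_deriv_le
    (μ := volume.restrict box) (F := fun s x => f (Fin.cons t x + s • v))
    (F' := fun s x => fderiv ℝ f (Fin.cons t x + s • v) v) (x₀ := 0) (bound := fun _ => B)
    (Metric.ball_mem_nhds (0 : ℝ) one_pos)
    (Eventually.of_forall fun s =>
      (show Continuous fun x => f (Fin.cons t x + s • v) from
        hf.continuous.comp (hmeas s)).aestronglyMeasurable)
    (integrableOn_box (show Continuous fun x => f (Fin.cons t x + (0 : ℝ) • v) from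
      hf.continuous.comp (hmeas 0)))
    (show Continuous fun x => fderiv ℝ f (Fin.cons t x + (0 : ℝ) • v) v from
      hd.comp (hmeas 0)).aestronglyMeasurable
    ((ae_restrict_iff' measurableSet_box).2 (ae_of_all _ fun x hx s hs => hB _ ?_))
    (integrable_const B) (ae_of_all _ fun x s _ => hline x s)).2
  · simpa using key
  · have hs' := abs_lt.1 (by simpa [Real.dist_eq] using hs)
    exact ⟨(x, s), ⟨box_subset hx, hs'.1.le, hs'.2.le⟩, rfl⟩

/-- Fibre periodicity. -/
def IsFibPer (f : V4 → ℝ) : Prop :=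
  ∀ (p : V4) (z : Fin 3 → ℤ), f (p + Fin.cons 0 fun i => (z i : ℝ)) = f p

theorem IsFibPer.isPer {f : V4 → ℝ} (hf : IsFibPer f) (t : ℝ) :
    IsPer fun x => f (Fin.cons t x) := fun x z => by
  have := hf (Fin.cons t x) z
  rwa [cons_add_cons, add_zero] at this

theorem avg_fderiv_fibre {f : V4 → ℝ} (hf : ContDiff ℝ 1 f) (hp : IsFibPer f) (t : ℝ)
    (w : Fin 3 → ℝ) : avg (fun p => fderiv ℝ f p (Fin.cons 0 w)) t = 0 := by
  have h : (fun s : ℝ => ∫ x in box, f (Fin.cons t x + s • (Fin.cons 0 w : V4))) =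
      fun _ => avg f t := by
    funext s
    have e : ∀ x : Fin 3 → ℝ, (Fin.cons t x : V4) + s • (Fin.cons 0 w : V4)
        = Fin.cons t (x + s • w) := by
      intro x; ext i; refine Fin.cases ?_ (fun j => ?_) i <;> simp
    simp only [e]
    exact integral_translate (hp.isPer t) (s • w)
  have key := hasDerivAt_avg hf t (Fin.cons 0 w)
  rw [h] at key
  exact key.unique (hasDerivAt_const _ _)

theorem hasDerivAt_avg_base {f : V4 → ℝ} (hf : ContDiff ℝ 1 f) (t : ℝ) :
    HasDerivAt (avg f) (avg (fun p => fderiv ℝ f p (Pi.single 0 1)) t) t := by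
  have key := hasDerivAt_avg hf t (Pi.single 0 1)
  have e : ∀ (x : Fin 3 → ℝ) (s : ℝ), (Fin.cons t x : V4) + s • (Pi.single 0 1 : V4)
      = Fin.cons (t + s) x := by
    intro x s; ext i; refine Fin.cases ?_ (fun j => ?_) i <;> simp
  simp only [e] at key
  have h0 : HasDerivAt (fun r : ℝ => r - t) 1 t := (hasDerivAt_id' t).sub_const t
  have h1 := HasDerivAt.comp_of_eq t key h0 (sub_self t).symm
  simp only [Function.comp_def, add_sub_cancel, mul_one] at h1
  exact h1

end Vale.Agent.P204
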