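import Mathlib

/-!
# P204: fibre-translation invariant almost complex structures on mapping tori of the three-torus

Points of the universal cover are `p : Fin 4 → ℝ` with `p 0` the base coordinate and the other
three the fibre coordinates. The mapping torus of `A ∈ GL(3, ℤ)` is the quotient by the fibre
translations by `ℤ³` and by `glue A : (t, x) ↦ (t + 1, A x)`.
-/

noncomputable section

open scoped ContDiff Matrix

namespace Vale.Agent.P204

/-- Points and tangent vectors of the universal cover. -/
abbrev V4 : Type := Fin 4 → ℝ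

/-- Real four by four matrices. -/
abbrev M4 : Type := Matrix (Fin 4) (Fin 4) ℝ

/-- The bilinear form of a matrix. -/
def bil (M : M4) (u v : V4) : ℝ := u ⬝ᵥ M *ᵥ v

/-- The linear part `diag(1, A)` of the gluing map. -/
def lift (A : Matrix (Fin 3) (Fin 3) ℤ) : M4 :=
  Matrix.of (Fin.cons (Fin.cons 1 0) fun i => Fin.cons 0 fun j => (A i j : ℝ))

/-- The gluing map `(t, x) ↦ (t + 1, A x)`. -/
def glue (A : Matrix (Fin 3) (Fin 3) ℤ) (p : V4) : V4 := lift A *ᵥ p + Pi.single 0 1

/-- An almost complex structure on the mapping torus of `A` which is invariant under the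
translations of the fibres, read in the standard frame: it depends on the base coordinate only. -/
structure IsInvariantACS (A : Matrix (Fin 3) (Fin 3) ℤ) (J : ℝ → M4) : Prop where
  smooth : ∀ i j, ContDiff ℝ ∞ fun t => J t i j
  sq : ∀ t, J t * J t = -1
  equivariant : ∀ t, J (t + 1) * lift A = lift A * J t

/-- The partial derivative in the direction of the `i`-th coordinate. -/
def pd (f : V4 → ℝ) (i : Fin 4) (p : V4) : ℝ := fderiv ℝ f p (Pi.single i 1)

/-- A smooth closed two-form on the mapping torus of `A`, as a form on the universal cover which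
is invariant under the deck group. -/
structure IsClosedForm (A : Matrix (Fin 3) (Fin 3) ℤ) (Ω : V4 → M4) : Prop where
  smooth : ∀ i j, ContDiff ℝ ∞ fun p => Ω p i j
  skew : ∀ p i j, Ω p i j = -Ω p j i
  periodic : ∀ (p : V4) (z : Fin 3 → ℤ), Ω (p + Fin.cons 0 fun i => (z i : ℝ)) = Ω p
  equivariant : ∀ p u v, bil (Ω (glue A p)) (lift A *ᵥ u) (lift A *ᵥ v) = bil (Ω p) u v
  closed : ∀ (i j k : Fin 4) (p : V4),
    pd (fun q => Ω q j k) i p + pd (fun q => Ω q k i) j p + pd (fun q => Ω q i j) k p = 0

/-- The form is positive on every complex line. -/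
def Tames (J : ℝ → M4) (Ω : V4 → M4) : Prop :=
  ∀ p : V4, ∀ v : V4, v ≠ 0 → 0 < bil (Ω p) v (J (p 0) *ᵥ v)

/-- The form is invariant under the almost complex structure. -/
def Invariant (J : ℝ → M4) (Ω : V4 → M4) : Prop :=
  ∀ p u v : V4, bil (Ω p) (J (p 0) *ᵥ u) (J (p 0) *ᵥ v) = bil (Ω p) u v

end Vale.Agent.P204
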