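import Vale.Agent.P204.Defs

/-!
# P204: the hypotheses are inhabited, also with non-trivial monodromy
-/

noncomputable section

open scoped ContDiff Matrix

namespace Vale.Agent.P204

/-- The standard complex structure. -/
def stdJ : M4 := !![0, -1, 0, 0; 1, 0, 0, 0; 0, 0, 0, -1; 0, 0, 1, 0]

/-- A monodromy of order two. -/
def flipA : Matrix (Fin 3) (Fin 3) ℤ := !![1, 0, 0; 0, -1, 0; 0, 0, -1]

theorem lift_flipA : lift flipA = !![1, 0, 0, 0; 0, 1, 0, 0; 0, 0, -1, 0; 0, 0, 0, -1] := by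
  ext i j
  refine Fin.cases ?_ (fun a => ?_) i <;> refine Fin.cases ?_ (fun b => ?_) j
  all_goals simp only [lift, Matrix.of_apply, Fin.cons_succ, Fin.cons_zero, Pi.zero_apply]
  · simp
  · fin_cases b <;> simp
  · fin_cases a <;> simp
  · fin_cases a <;> fin_cases b <;> simp [flipA]

theorem exists_instance : ∃ (A : Matrix (Fin 3) (Fin 3) ℤ) (J : ℝ → M4) (Ω : V4 → M4),
    IsUnit A.det ∧ A ≠ 1 ∧ IsInvariantACS A J ∧ IsClosedForm A Ω ∧ Tames J Ω := by
  refine ⟨flipA, fun _ => stdJ, fun _ => -stdJ, ?_, ?_, ⟨?_, ?_, ?_⟩, ⟨?_, ?_, ?_, ?_, ?_⟩, ?_⟩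
  · simp [flipA, Matrix.det_fin_three]
  · intro h
    have := congrFun (congrFun h 1) 1
    simp [flipA] at this
  · exact fun _ _ => contDiff_const
  · intro _
    ext i j
    fin_cases i <;> fin_cases j <;> simp [stdJ, Matrix.mul_apply, Fin.sum_univ_four]
  · intro _
    rw [lift_flipA]
    ext i j
    fin_cases i <;> fin_cases j <;> simp [stdJ, Matrix.mul_apply, Fin.sum_univ_four]
  · exact fun _ _ => contDiff_const
  · intro _ i j
    fin_cases i <;> fin_cases j <;> simp [stdJ]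
  · exact fun _ _ => rfl
  · intro _ u v
    rw [lift_flipA]
    simp [bil, stdJ, Matrix.mulVec, dotProduct, Fin.sum_univ_four]
  · intro i j k p
    simp [pd]
  · intro p v hv
    have e : bil (-stdJ) v (stdJ *ᵥ v) = v 0 ^ 2 + v 1 ^ 2 + v 2 ^ 2 + v 3 ^ 2 := by
      simp [bil, stdJ, Matrix.mulVec, dotProduct, Fin.sum_univ_four]
      ring
    rw [e]
    by_contra hle
    push Not at hle
    refine hv ?_
    have a := sq_nonneg (v 0); have b := sq_nonneg (v 1)
    have c := sq_nonneg (v 2); have d := sq_nonneg (v 3)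
    have e0 : v 0 = 0 := (pow_eq_zero_iff two_ne_zero).1 (by linarith : v 0 ^ 2 = 0)
    have e1 : v 1 = 0 := (pow_eq_zero_iff two_ne_zero).1 (by linarith : v 1 ^ 2 = 0)
    have e2 : v 2 = 0 := (pow_eq_zero_iff two_ne_zero).1 (by linarith : v 2 ^ 2 = 0)
    have e3 : v 3 = 0 := (pow_eq_zero_iff two_ne_zero).1 (by linarith : v 3 ^ 2 = 0)
    ext i
    fin_cases i <;> simp [e0, e1, e2, e3]

end Vale.Agent.P204
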