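import Vale.Agent.P204.Defs

/-!
# P204: the compatible form at one point
-/

noncomputable section

open scoped Matrix

namespace Vale.Agent.P204

/-- The kernel vector of a fibre form. -/
def kvec (S : M4) : V4 := ![0, S 2 3, S 3 1, S 1 2]

/-- The kernel vector normalised by `dt ∘ J`. -/
def nvec (J S : M4) : V4 := ((J *ᵥ kvec S) 0)⁻¹ • kvec S

/-- The projection to the complex line in the fibre, along `n` and `J n`. -/
def pmat (J S : M4) : M4 :=
  1 - Matrix.vecMulVec (nvec J S) (J 0) - Matrix.vecMulVec (J *ᵥ nvec J S) (Pi.single 0 1)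

/-- The compatible form. -/
def wform (J S : M4) : M4 :=
  (pmat J S)ᵀ * S * pmat J S + Matrix.vecMulVec (J 0) (Pi.single 0 1)
    - Matrix.vecMulVec (Pi.single 0 1) (J 0)

theorem bil_single (M : M4) (i j : Fin 4) : bil M (Pi.single i 1) (Pi.single j 1) = M i j := by
  simp [bil]

theorem bil_wform (J S : M4) (u v : V4) :
    bil (wform J S) u v = bil S (pmat J S *ᵥ u) (pmat J S *ᵥ v)
      + ((J *ᵥ u) 0 * v 0 - u 0 * (J *ᵥ v) 0) := by
  have h1 : u ⬝ᵥ ((pmat J S)ᵀ * S * pmat J S) *ᵥ v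
      = bil S (pmat J S *ᵥ u) (pmat J S *ᵥ v) := by
    rw [bil, ← Matrix.mulVec_mulVec, ← Matrix.mulVec_mulVec, Matrix.dotProduct_mulVec,
      Matrix.vecMul_transpose]
  have h2 : ∀ w : V4, (J *ᵥ w) 0 = J 0 ⬝ᵥ w := fun w => rfl
  simp only [bil, wform, Matrix.sub_mulVec, Matrix.add_mulVec, dotProduct_sub, dotProduct_add,
    Matrix.vecMulVec_mulVec, h2]
  simp only [bil] at h1
  rw [h1]
  simp [dotProduct_comm u (J 0), mul_comm]
  ring

theorem pmat_mulVec (J S : M4) (v : V4) :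
    pmat J S *ᵥ v = v - (J *ᵥ v) 0 • nvec J S - v 0 • (J *ᵥ nvec J S) := by
  have h2 : (J *ᵥ v) 0 = J 0 ⬝ᵥ v := rfl
  simp [pmat, Matrix.sub_mulVec, Matrix.vecMulVec_mulVec, h2, op_smul_eq_smul]

/-- The data at one point: an almost complex structure and a fibre form, positive on complex
lines in the fibre direction. -/
structure Datum (J S : M4) : Prop where
  sq : J * J = -1
  skew : ∀ i j, S i j = -S j i
  zero : ∀ j, S 0 j = 0
  pos : ∀ v : V4, v ≠ 0 → v 0 = 0 → (J *ᵥ v) 0 = 0 → 0 < bil S v (J *ᵥ v)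

theorem exists_mem_line (J : M4) : ∃ v : V4, v ≠ 0 ∧ v 0 = 0 ∧ (J *ᵥ v) 0 = 0 := by
  let f : V4 →ₗ[ℝ] ℝ × ℝ := (LinearMap.proj (0 : Fin 4)).prod
    ((LinearMap.proj (0 : Fin 4)).comp (Matrix.mulVecLin J))
  have hf : LinearMap.ker f ≠ ⊥ := LinearMap.ker_ne_bot_of_finrank_lt (by simp)
  obtain ⟨v, hv, hv0⟩ := Submodule.exists_mem_ne_zero_of_ne_bot hf
  exact ⟨v, hv0, congrArg Prod.fst hv, congrArg Prod.snd hv⟩

namespace Datum

variable {J S : M4}

theorem sum_expand (h : Datum J S) (u v : V4) : bil S u v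
    = S 1 2 * (u 1 * v 2 - u 2 * v 1) + S 2 3 * (u 2 * v 3 - u 3 * v 2)
      + S 3 1 * (u 3 * v 1 - u 1 * v 3) := by
  have d : ∀ i, S i i = 0 := fun i => by linarith [h.skew i i]
  have z : ∀ i, S i 0 = 0 := fun i => by rw [h.skew i 0, h.zero i, neg_zero]
  simp [bil, Matrix.mulVec, dotProduct, Fin.sum_univ_four, h.zero, z, d, h.skew 2 1, h.skew 3 2,
    h.skew 1 3]
  ring

theorem swap (h : Datum J S) (u v : V4) : bil S u v = -bil S v u := by
  rw [h.sum_expand, h.sum_expand]; ring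

theorem self_zero (h : Datum J S) (u : V4) : bil S u u = 0 := by
  linarith [h.swap u u]

theorem kvec_left (h : Datum J S) (v : V4) : bil S (kvec S) v = 0 := by
  rw [h.sum_expand]; simp [kvec]; ring

theorem plucker (h : Datum J S) (u v w z : V4) :
    bil S u v * bil S w z - bil S u w * bil S v z + bil S u z * bil S v w = 0 := by
  simp only [h.sum_expand]; ring

theorem J_J (h : Datum J S) (v : V4) : J *ᵥ (J *ᵥ v) = -v := by
  rw [Matrix.mulVec_mulVec, h.sq, Matrix.neg_mulVec, Matrix.one_mulVec]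

theorem cst_ne (h : Datum J S) : (J *ᵥ kvec S) 0 ≠ 0 := by
  intro hc
  by_cases hk : kvec S = 0
  · obtain ⟨v, hv, h0, h1⟩ := exists_mem_line J
    have := h.pos v hv h0 h1
    have e1 : S 2 3 = 0 := congrFun hk 1
    have e2 : S 3 1 = 0 := congrFun hk 2
    have e3 : S 1 2 = 0 := congrFun hk 3
    rw [h.sum_expand, e1, e2, e3] at this
    simp at this
  · have := h.pos (kvec S) hk (by simp [kvec]) hc
    rw [h.kvec_left] at this
    exact lt_irrefl _ this

theorem nvec_zero : nvec J S 0 = 0 := by simp [nvec, kvec]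

theorem J_nvec (h : Datum J S) : (J *ᵥ nvec J S) 0 = 1 := by
  simp [nvec, Matrix.mulVec_smul, inv_mul_cancel₀ h.cst_ne]

theorem nvec_left (h : Datum J S) (v : V4) : bil S (nvec J S) v = 0 := by
  rw [nvec, bil, smul_dotProduct, ← bil, h.kvec_left, smul_zero]

theorem line_eq_zero (h : Datum J S) {r : V4} (h0 : r 0 = 0) (h1 : (J *ᵥ r) 0 = 0)
    (hs : bil S r (J *ᵥ r) = 0) : r = 0 := by
  by_contra hr
  exact (h.pos r hr h0 h1).ne' hs

/-- Vectors in the fibre annihilated by the fibre form lie on the kernel line. -/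
theorem unique (h : Datum J S) {m : V4} (h0 : m 0 = 0) (h1 : (J *ᵥ m) 0 = 1)
    (hs : ∀ v, bil S m v = 0) : m = nvec J S := by
  refine sub_eq_zero.1 (h.line_eq_zero (by simp [h0, nvec_zero]) ?_ ?_)
  · simp [Matrix.mulVec_sub, h1, h.J_nvec]
  · rw [bil, sub_dotProduct, ← bil, ← bil, hs, h.nvec_left, sub_zero]

theorem pmat_line (h : Datum J S) (v : V4) :
    (pmat J S *ᵥ v) 0 = 0 ∧ (J *ᵥ (pmat J S *ᵥ v)) 0 = 0 := by
  rw [pmat_mulVec]
  constructor
  · simp [nvec_zero, h.J_nvec]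
  · simp [Matrix.mulVec_sub, Matrix.mulVec_smul, h.J_nvec, h.J_J, nvec_zero]

theorem pmat_J (h : Datum J S) (v : V4) :
    pmat J S *ᵥ (J *ᵥ v) = J *ᵥ (pmat J S *ᵥ v) := by
  simp only [pmat_mulVec, Matrix.mulVec_sub, Matrix.mulVec_smul, h.J_J, Pi.neg_apply, neg_smul,
    smul_neg]
  abel

theorem line_invariant (h : Datum J S) (u v : V4) (hu0 : u 0 = 0) (hu1 : (J *ᵥ u) 0 = 0)
    (hv0 : v 0 = 0) (hv1 : (J *ᵥ v) 0 = 0) :
    bil S (J *ᵥ u) (J *ᵥ v) = bil S u v := by
  by_cases hu : u = 0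
  · simp [hu, bil]
  have hp := h.pos u hu hu0 hu1
  set q := bil S u (J *ᵥ u) with hq
  set α := bil S v (J *ᵥ u) / q with hα
  set β := bil S u v / q with hβ
  set r := v - α • u - β • (J *ᵥ u) with hr
  have hJr : J *ᵥ r = J *ᵥ v - α • (J *ᵥ u) + β • u := by
    simp [hr, Matrix.mulVec_sub, Matrix.mulVec_smul, h.J_J, smul_neg]
  have r0 : r 0 = 0 := by simp [hr, hu0, hu1, hv0]
  have r1 : (J *ᵥ r) 0 = 0 := by simp [hJr, hu0, hu1, hv1]
  have eu : bil S u r = 0 := by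
    have e : bil S u r = bil S u v - α * bil S u u - β * bil S u (J *ᵥ u) := by
      simp [hr, bil, Matrix.mulVec_sub, Matrix.mulVec_smul, dotProduct_sub, dotProduct_smul]
    rw [e, h.self_zero, ← hq, hβ, div_mul_cancel₀ _ hp.ne']; ring
  have eJ : bil S (J *ᵥ u) r = 0 := by
    have e : bil S (J *ᵥ u) r
        = bil S (J *ᵥ u) v - α * bil S (J *ᵥ u) u - β * bil S (J *ᵥ u) (J *ᵥ u) := by
      simp [hr, bil, Matrix.mulVec_sub, Matrix.mulVec_smul, dotProduct_sub, dotProduct_smul]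
    rw [e, h.self_zero, h.swap (J *ᵥ u) u, h.swap (J *ᵥ u) v, ← hq, hα]
    field_simp
    ring
  have hr0 : r = 0 := by
    refine h.line_eq_zero r0 r1 ?_
    have hpl := h.plucker u (J *ᵥ u) r (J *ᵥ r)
    rw [eu, eJ] at hpl
    simp only [zero_mul, sub_zero, mul_zero, add_zero, ← hq] at hpl
    exact (mul_eq_zero.1 hpl).resolve_left hp.ne'
  have hv : v = α • u + β • (J *ᵥ u) := by
    have := sub_eq_zero.1 (show v - (α • u + β • (J *ᵥ u)) = 0 by rw [← hr0, hr]; abel)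
    exact this
  have hJv : J *ᵥ v = α • (J *ᵥ u) - β • u := by
    rw [hv]; simp [Matrix.mulVec_add, Matrix.mulVec_smul, h.J_J, smul_neg, sub_eq_add_neg]
  have e : bil S (J *ᵥ u) (J *ᵥ v) = α * bil S (J *ᵥ u) (J *ᵥ u) - β * bil S (J *ᵥ u) u := by
    rw [hJv]
    simp [bil, Matrix.mulVec_sub, Matrix.mulVec_smul, dotProduct_sub, dotProduct_smul]
  rw [e, h.self_zero, h.swap (J *ᵥ u) u, ← hq, hβ]
  field_simp
  ring

theorem wform_invariant (h : Datum J S) (u v : V4) :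
    bil (wform J S) (J *ᵥ u) (J *ᵥ v) = bil (wform J S) u v := by
  rw [bil_wform, bil_wform, h.pmat_J, h.pmat_J,
    h.line_invariant _ _ (h.pmat_line u).1 (h.pmat_line u).2 (h.pmat_line v).1 (h.pmat_line v).2,
    h.J_J, h.J_J]
  simp only [Pi.neg_apply]
  ring

theorem wform_pos (h : Datum J S) (v : V4) (hv : v ≠ 0) :
    0 < bil (wform J S) v (J *ᵥ v) := by
  rw [bil_wform, h.pmat_J, h.J_J, Pi.neg_apply]
  have ha := mul_self_nonneg ((J *ᵥ v) 0)
  have hb := mul_self_nonneg (v 0)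
  by_cases hp : pmat J S *ᵥ v = 0
  · rw [hp, bil, zero_dotProduct, zero_add]
    by_contra hle
    push Not at hle
    have a0 : (J *ᵥ v) 0 = 0 := mul_self_eq_zero.1 (by nlinarith)
    have b0 : v 0 = 0 := mul_self_eq_zero.1 (by nlinarith)
    refine hv ?_
    rwa [pmat_mulVec, a0, b0, zero_smul, zero_smul, sub_zero, sub_zero] at hp
  · have := h.pos _ hp (h.pmat_line v).1 (h.pmat_line v).2
    nlinarith

theorem wform_skew (h : Datum J S) (i j : Fin 4) : wform J S i j = -wform J S j i := by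
  rw [← bil_single (wform J S) i j, ← bil_single (wform J S) j i, bil_wform, bil_wform,
    h.swap]
  ring

theorem wform_fibre (h : Datum J S) (i j : Fin 4) (hi : i ≠ 0) (hj : j ≠ 0) :
    wform J S i j = S i j := by
  rw [← bil_single (wform J S) i j, bil_wform, pmat_mulVec, pmat_mulVec]
  have e1 : (Pi.single i 1 : V4) 0 = 0 := by simp [hi]
  have e2 : (Pi.single j 1 : V4) 0 = 0 := by simp [hj]
  rw [e1, e2]
  simp only [zero_smul, sub_zero, mul_zero, zero_mul, sub_self, add_zero]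
  have key : ∀ (a b : ℝ) (u v : V4),
      bil S (u - a • nvec J S) (v - b • nvec J S) = bil S u v := by
    intro a b u v
    have hr : ∀ w, bil S w (nvec J S) = 0 := fun w => by rw [h.swap, h.nvec_left, neg_zero]
    have e : bil S (u - a • nvec J S) (v - b • nvec J S) = bil S u v - b * bil S u (nvec J S)
        - a * (bil S (nvec J S) v - b * bil S (nvec J S) (nvec J S)) := by
      simp [bil, Matrix.mulVec_sub, Matrix.mulVec_smul, dotProduct_sub, dotProduct_smul,
        sub_dotProduct, smul_dotProduct]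
      ring
    rw [e, hr, h.nvec_left, h.nvec_left]; ring
  rw [key, bil_single]

/-- Naturality of the form under linear maps intertwining the data. -/
theorem wform_natural {J' S' L : M4} (h : Datum J S) (h' : Datum J' S')
    (hJ : J' * L = L * J) (hL0 : ∀ v : V4, (L *ᵥ v) 0 = v 0)
    (hS : ∀ u v, bil S' (L *ᵥ u) (L *ᵥ v) = bil S u v) (hsurj : ∀ w, ∃ v, L *ᵥ v = w)
    (u v : V4) : bil (wform J' S') (L *ᵥ u) (L *ᵥ v) = bil (wform J S) u v := by
  have hJv : ∀ w, J' *ᵥ (L *ᵥ w) = L *ᵥ (J *ᵥ w) := fun w => by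
    rw [Matrix.mulVec_mulVec, hJ, ← Matrix.mulVec_mulVec]
  have hn : L *ᵥ nvec J S = nvec J' S' := by
    refine h'.unique (by rw [hL0]; exact nvec_zero) (by rw [hJv, hL0]; exact h.J_nvec) fun w => ?_
    obtain ⟨x, rfl⟩ := hsurj w
    rw [hS, h.nvec_left]
  have hp : ∀ w, pmat J' S' *ᵥ (L *ᵥ w) = L *ᵥ (pmat J S *ᵥ w) := by
    intro w
    simp only [pmat_mulVec, Matrix.mulVec_sub, Matrix.mulVec_smul, hJv, hL0, ← hn]
  simp only [bil_wform, hp, hS, hJv, hL0]

end Datum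

end Vale.Agent.P204
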