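import Vale.Agent.P204.Avg
import Vale.Agent.P204.Pointwise

/-!
# P204: tamed implies compatible for fibre-translation invariant structures
-/

noncomputable section

open MeasureTheory Set
open scoped ContDiff Matrix

namespace Vale.Agent.P204

/-- The averaged fibre form. -/
def fibForm (Ω : V4 → M4) : M4 :=
  Matrix.of fun i j => if i = 0 ∨ j = 0 then 0 else avg (fun q => Ω q i j) 0

/-- A vector with its base component removed. -/
def fib (u : V4) : V4 := Fin.cons 0 (Fin.tail u)

theorem fib_zero (u : V4) : fib u 0 = 0 := rfl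

theorem lift_mulVec (A : Matrix (Fin 3) (Fin 3) ℤ) (v : V4) :
    lift A *ᵥ v = Fin.cons (v 0) (A.map (Int.cast : ℤ → ℝ) *ᵥ Fin.tail v) := by
  ext i
  refine Fin.cases ?_ (fun k => ?_) i <;>
    simp [lift, Matrix.mulVec, dotProduct, Fin.sum_univ_succ, Fin.tail]

theorem lift_fib (A : Matrix (Fin 3) (Fin 3) ℤ) (v : V4) :
    lift A *ᵥ fib v = fib (lift A *ᵥ v) := by
  simp [lift_mulVec, fib]

theorem glue_cons (A : Matrix (Fin 3) (Fin 3) ℤ) (t : ℝ) (x : Fin 3 → ℝ) :
    glue A (Fin.cons t x) = Fin.cons (t + 1) (A.map (Int.cast : ℤ → ℝ) *ᵥ x) := by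
  rw [glue, lift_mulVec]
  ext i
  refine Fin.cases ?_ (fun k => ?_) i <;> simp

theorem lift_surjective {A : Matrix (Fin 3) (Fin 3) ℤ} (hA : IsUnit A.det) (w : V4) :
    ∃ v, lift A *ᵥ v = w := by
  refine ⟨Fin.cons (w 0) ((A⁻¹).map (Int.cast : ℤ → ℝ) *ᵥ Fin.tail w), ?_⟩
  have h1 : A.map (Int.cast : ℤ → ℝ) * (A⁻¹).map (Int.cast : ℤ → ℝ)
      = (A * A⁻¹).map (Int.cast : ℤ → ℝ) := (Matrix.map_mul (f := Int.castRingHom ℝ)).symm
  rw [lift_mulVec, Fin.tail_cons, Matrix.mulVec_mulVec, h1, Matrix.mul_nonsing_inv A hA]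
  ext i
  refine Fin.cases ?_ (fun k => ?_) i <;> simp [Fin.tail]

theorem pd_base {g : ℝ → ℝ} (hg : Differentiable ℝ g) (i : Fin 4) (p : V4) :
    pd (fun q => g (q 0)) i p = (Pi.single i 1 : V4) 0 * deriv g (p 0) := by
  have h : HasFDerivAt (fun q : V4 => g (q 0))
      (deriv g (p 0) • ContinuousLinearMap.proj (R := ℝ) (φ := fun _ : Fin 4 => ℝ) 0) p :=
    (hg (p 0)).hasDerivAt.comp_hasFDerivAt p
      (hasFDerivAt_apply (𝕜 := ℝ) (F' := fun _ : Fin 4 => ℝ) 0 p)
  rw [pd, h.fderiv]
  simp [mul_comm]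

section

variable {A : Matrix (Fin 3) (Fin 3) ℤ} {J : ℝ → M4} {Ω : V4 → M4}

theorem continuous_bil (hΩ : IsClosedForm A Ω) (u v : V4) :
    Continuous fun p => bil (Ω p) u v := by
  simp only [bil, Matrix.mulVec, dotProduct]
  exact continuous_finsetSum _ fun i _ => continuous_const.mul
    (continuous_finsetSum _ fun j _ => (hΩ.smooth i j).continuous.mul continuous_const)

theorem avg_eq_fibForm (hΩ : IsClosedForm A Ω) (i j : Fin 4) (hi : i ≠ 0) (hj : j ≠ 0) (t : ℝ) :
    avg (fun q => Ω q i j) t = fibForm Ω i j := by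
  obtain ⟨a, rfl⟩ := Fin.exists_succ_eq.2 hi
  obtain ⟨b, rfl⟩ := Fin.exists_succ_eq.2 hj
  have he : ∀ c : Fin 3, (Pi.single c.succ 1 : V4) = Fin.cons 0 (Pi.single c 1) := fun c => by
    ext k; refine Fin.cases ?_ (fun l => ?_) k <;> simp [Pi.single_apply, eq_comm]
  have hC : ∀ i j, ContDiff ℝ 1 fun q => Ω q i j := fun i j =>
    (hΩ.smooth i j).of_le (by norm_num)
  have hper : ∀ i j, IsFibPer fun q => Ω q i j := fun i j p z => by
    simp only [hΩ.periodic]
  have hd : ∀ (i j k : Fin 4) (s : ℝ),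
      IntegrableOn (fun x => pd (fun q => Ω q i j) k (Fin.cons s x)) box := fun i j k s =>
    integrableOn_box ((((hC i j).continuous_fderiv one_ne_zero).clm_apply
      continuous_const).comp (continuous_cons s))
  have hder : ∀ s, HasDerivAt (avg fun q => Ω q a.succ b.succ) 0 s := by
    intro s
    have h := hasDerivAt_avg_base (hC a.succ b.succ) s
    have h1 := avg_fderiv_fibre (hC b.succ 0) (hper b.succ 0) s (Pi.single a 1)
    have h2 := avg_fderiv_fibre (hC 0 a.succ) (hper 0 a.succ) s (Pi.single b 1)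
    rw [← he] at h1 h2
    have hz : avg (fun p => fderiv ℝ (fun q => Ω q a.succ b.succ) p (Pi.single 0 1)) s = 0 := by
      have e : ∀ x, pd (fun q => Ω q a.succ b.succ) 0 (Fin.cons s x)
          = -(pd (fun q => Ω q b.succ 0) a.succ (Fin.cons s x)
            + pd (fun q => Ω q 0 a.succ) b.succ (Fin.cons s x)) := fun x => by
        linarith [hΩ.closed 0 a.succ b.succ (Fin.cons s x)]
      show ∫ x in box, pd (fun q => Ω q a.succ b.succ) 0 (Fin.cons s x) = 0
      rw [integral_congr_ae (ae_of_all _ e), integral_neg,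
        integral_add (hd b.succ 0 a.succ s) (hd 0 a.succ b.succ s)]
      change -(avg (fun p => fderiv ℝ (fun q => Ω q b.succ 0) p (Pi.single a.succ 1)) s
        + avg (fun p => fderiv ℝ (fun q => Ω q 0 a.succ) p (Pi.single b.succ 1)) s) = 0
      rw [h1, h2, add_zero, neg_zero]
    rwa [hz] at h
  simp [fibForm, Fin.succ_ne_zero,
    is_const_of_deriv_eq_zero (fun s => (hder s).differentiableAt) (fun s => (hder s).deriv) t 0]

theorem integral_bil (hΩ : IsClosedForm A Ω) (t : ℝ) (u v : V4) (hu : u 0 = 0) (hv : v 0 = 0) :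
    ∫ x in box, bil (Ω (Fin.cons t x)) u v = bil (fibForm Ω) u v := by
  simp only [bil, Matrix.mulVec, dotProduct, Finset.mul_sum]
  have hc : ∀ i j, IntegrableOn (fun x => u i * (Ω (Fin.cons t x) i j * v j)) box := fun i j =>
    integrableOn_box (continuous_const.mul
      ((((hΩ.smooth i j).continuous).comp (continuous_cons t)).mul continuous_const))
  rw [integral_finsetSum _ fun i _ => integrable_finsetSum _ fun j _ => hc i j]
  refine Finset.sum_congr rfl fun i _ => ?_
  rw [integral_finsetSum _ fun j _ => hc i j]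
  refine Finset.sum_congr rfl fun j _ => ?_
  by_cases hi : i = 0
  · simp [hi, hu]
  by_cases hj : j = 0
  · simp [hj, hv]
  rw [integral_const_mul, integral_mul_const]
  rw [← avg_eq_fibForm hΩ i j hi hj t]
  rfl

theorem datum (hJ : IsInvariantACS A J) (hΩ : IsClosedForm A Ω) (hT : Tames J Ω) (t : ℝ) :
    Datum (J t) (fibForm Ω) where
  sq := hJ.sq t
  skew i j := by
    by_cases h : i = 0 ∨ j = 0
    · simp [fibForm, h, h.symm]
    · have h' : ¬(j = 0 ∨ i = 0) := fun h' => h h'.symm
      simp only [fibForm, Matrix.of_apply, if_neg h, if_neg h', avg, ← integral_neg]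
      exact integral_congr_ae (ae_of_all _ fun x => hΩ.skew _ i j)
  zero j := by simp [fibForm]
  pos v hv h0 h1 := by
    rw [← integral_bil hΩ t v (J t *ᵥ v) h0 h1]
    have hpos : ∀ x : Fin 3 → ℝ, 0 < bil (Ω (Fin.cons t x)) v (J t *ᵥ v) := fun x => by
      simpa using hT (Fin.cons t x) v hv
    rw [setIntegral_pos_iff_support_of_nonneg_ae (ae_of_all _ fun x => (hpos x).le)
      (integrableOn_box ((continuous_bil hΩ v _).comp (continuous_cons t)))]
    have : Function.support (fun x : Fin 3 → ℝ => bil (Ω (Fin.cons t x)) v (J t *ᵥ v)) = univ :=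
      Set.eq_univ_of_forall fun x => (hpos x).ne'
    rw [this, univ_inter, volume_box]
    exact one_pos

theorem fibForm_lift (hA : IsUnit A.det) (hJ : IsInvariantACS A J) (hΩ : IsClosedForm A Ω)
    (hT : Tames J Ω) (u v : V4) :
    bil (fibForm Ω) (lift A *ᵥ u) (lift A *ᵥ v) = bil (fibForm Ω) u v := by
  have hd := datum hJ hΩ hT 0
  have hfib : ∀ a b, bil (fibForm Ω) a b = bil (fibForm Ω) (fib a) (fib b) := fun a b => by
    rw [hd.sum_expand, hd.sum_expand]
    have e : ∀ (w : V4) (k : Fin 3), fib w k.succ = w k.succ := fun w k => rfl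
    rw [show (1 : Fin 4) = Fin.succ 0 from rfl, show (2 : Fin 4) = Fin.succ 1 from rfl,
      show (3 : Fin 4) = Fin.succ 2 from rfl]
    simp only [e]
  rw [hfib u v, hfib (lift A *ᵥ u), ← lift_fib, ← lift_fib]
  have z : ∀ w, (lift A *ᵥ fib w) 0 = 0 := fun w => by rw [lift_fib]; rfl
  rw [← integral_bil hΩ 1 _ _ (z u) (z v), ← integral_bil hΩ 0 _ _ (fib_zero u) (fib_zero v)]
  let g : (Fin 3 → ℝ) → ℝ := fun x =>
    bil (Ω (Fin.cons 1 x)) (lift A *ᵥ fib u) (lift A *ᵥ fib v)
  have hgc : Continuous g := (continuous_bil hΩ _ _).comp (continuous_cons 1)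
  have hgp : IsPer g := fun x z => by
    have := hΩ.periodic (Fin.cons 1 x) z
    rw [cons_add_cons, add_zero] at this
    simp only [g, this]
  show ∫ x in box, g x = _
  rw [← integral_comp_mat hgp hgc A hA]
  refine integral_congr_ae (ae_of_all _ fun x => ?_)
  have := hΩ.equivariant (Fin.cons 0 x) (fib u) (fib v)
  rw [glue_cons, zero_add] at this
  exact this

theorem contDiff_wform {S : M4} (hJ : ∀ i j, ContDiff ℝ ∞ fun t => J t i j)
    (hc : ∀ t, (J t *ᵥ kvec S) 0 ≠ 0) (i j : Fin 4) :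
    ContDiff ℝ ∞ fun t => wform (J t) S i j := by
  have hk : ∀ a, ContDiff ℝ ∞ fun t => (J t *ᵥ kvec S) a := fun a => by
    simp only [Matrix.mulVec, dotProduct]
    exact ContDiff.sum fun b _ => (hJ a b).mul contDiff_const
  have hn : ∀ a, ContDiff ℝ ∞ fun t => nvec (J t) S a := fun a => by
    simp only [nvec, Pi.smul_apply, smul_eq_mul]
    exact ((hk 0).inv hc).mul contDiff_const
  have hJn : ∀ a, ContDiff ℝ ∞ fun t => (J t *ᵥ nvec (J t) S) a := fun a => by
    simp only [Matrix.mulVec, dotProduct]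
    exact ContDiff.sum fun b _ => (hJ a b).mul (hn b)
  have hp : ∀ a b, ContDiff ℝ ∞ fun t => pmat (J t) S a b := fun a b => by
    simp only [pmat, Matrix.sub_apply, Matrix.vecMulVec_apply]
    exact (contDiff_const.sub ((hn a).mul (hJ 0 b))).sub ((hJn a).mul contDiff_const)
  simp only [wform, Matrix.sub_apply, Matrix.add_apply, Matrix.vecMulVec_apply, Matrix.mul_apply,
    Matrix.transpose_apply]
  exact (((ContDiff.sum fun b _ => (ContDiff.sum fun a _ =>
    (hp a i).mul contDiff_const).mul (hp b j))).add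
      ((hJ 0 i).mul contDiff_const)).sub (contDiff_const.mul (hJ 0 j))

/-- Tamed implies compatible for fibre-translation invariant almost complex structures. -/
theorem tamed_to_compatible (hA : IsUnit A.det) (hJ : IsInvariantACS A J)
    (hΩ : IsClosedForm A Ω) (hT : Tames J Ω) :
    ∃ Θ, IsClosedForm A Θ ∧ Tames J Θ ∧ Invariant J Θ := by
  set S := fibForm Ω with hS
  have hd := datum hJ hΩ hT
  have hW : ∀ i j, ContDiff ℝ ∞ fun t => wform (J t) S i j :=
    contDiff_wform hJ.smooth fun t => (hd t).cst_ne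
  refine ⟨fun p => wform (J (p 0)) S, ⟨?_, ?_, ?_, ?_, ?_⟩, ?_, ?_⟩
  · exact fun i j => (hW i j).comp (contDiff_apply ℝ ℝ (0 : Fin 4))
  · exact fun p i j => (hd (p 0)).wform_skew i j
  · intro p z
    simp
  · intro p u v
    have e : glue A p 0 = p 0 + 1 := by simp [glue, lift_mulVec]
    show bil (wform (J (glue A p 0)) S) _ _ = _
    rw [e]
    exact (hd (p 0)).wform_natural (hd (p 0 + 1)) (hJ.equivariant (p 0))
      (fun w => by simp [lift_mulVec]) (fibForm_lift hA hJ hΩ hT) (lift_surjective hA) u v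
  · intro i j k p
    have hdf : ∀ a b, Differentiable ℝ fun t => wform (J t) S a b := fun a b =>
      (hW a b).differentiable (by simp)
    rw [pd_base (hdf j k), pd_base (hdf k i), pd_base (hdf i j)]
    set G : Fin 4 → Fin 4 → ℝ := fun a b => deriv (fun t => wform (J t) S a b) (p 0) with hG
    have gs : ∀ a b, G a b = -G b a := fun a b => by
      rw [hG]
      show deriv _ _ = -deriv _ _
      rw [← deriv.neg]
      exact congrArg (fun f => deriv f (p 0)) (funext fun t => (hd t).wform_skew a b)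
    have g0 : ∀ a b, a ≠ 0 → b ≠ 0 → G a b = 0 := fun a b ha hb => by
      show deriv _ _ = 0
      rw [show (fun t => wform (J t) S a b) = fun _ => S a b from
        funext fun t => (hd t).wform_fibre a b ha hb]
      exact deriv_const _ _
    show (Pi.single i 1 : V4) 0 * G j k + (Pi.single j 1 : V4) 0 * G k i
      + (Pi.single k 1 : V4) 0 * G i j = 0
    by_cases hi : i = 0 <;> by_cases hj : j = 0 <;> by_cases hk : k = 0 <;>
      simp [hi, hj, hk, g0] <;> linarith [gs i j, gs j k, gs k i, gs 0 0, gs 0 i, gs 0 j, gs 0 k]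
  · exact fun p v hv => (hd (p 0)).wform_pos v hv
  · exact fun p u v => (hd (p 0)).wform_invariant u v

end

end Vale.Agent.P204
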